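import Crest.Agent.X262.Cl49.Near
import Crest.Agent.X262.Vb10.Amal
import Crest.Agent.X262.Cnt37.Main

/-!
# Row 262, road B (helper49): `Class2Stmt`
-/

set_option autoImplicit false
set_option linter.unusedSectionVars false

noncomputable section

namespace Crest.Agent.X262.Cl49

open Crest.Agent.X277 Crest.Agent.X277.BD Crest.Agent.X277.BD.Cyc Crest.Agent.X277.Pst
open Crest.Agent.X262.Hb Crest.Agent.X262.Vb Crest.Agent.X262.Vb37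
open Crest.Agent.X262.Node22 (scl Par pair jn)
open Crest.Agent.X262.Wd54 (Lat rp Tv N3 gl)
open Crest.Agent.X262.Val40 (Sq dn rf)

variable {J : Type} [Fintype J] [DecidableEq J] {io : J → Type} [∀ j, Fintype (io j)]
  [∀ j, DecidableEq (io j)]
variable {k k' F F' E' : Type} [Field k] [Algebra ℂ k] [Field k'] [Algebra ℂ k'] [Field F]
  [Algebra ℂ F] [Field F'] [Algebra ℂ F'] [Field E'] [Algebra ℂ E']
variable {I₁ I₂ I₁' I₂' M M₁ M₂ : Type} [Fintype I₁] [Fintype I₂] [Fintype I₁'] [Fintype I₂']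
  [Fintype M₁] [Fintype M₂] {N : ℕ} {d d₁ d₂ : J → ℕ}

theorem exists_nrm (ξ : Dat io d M k) (N : ℕ) : ∃ (L : Type) (_ : Field L) (_ : Algebra ℂ L)
    (θ : k →ₐ[ℂ] L) (n : ℕ) (η : Dat io d (M ⊕ Fin n) L),
    0 < deg θ ∧ η.res Sum.inl = ξ.map θ ∧ η.NrmUp N := by
  obtain ⟨L, _, _, _, _, _, n, η, h1, h2⟩ := Bub96.exists_nrm ξ N
  exact ⟨L, _, _, _, n, η, by rw [deg_tower]; exact Module.finrank_pos, h1, h2⟩

theorem piv_of_triv {γ : k →ₐ[ℂ] F} {y₀ : Pnt io k} {y : Pnt io F} (h : Par y (mapP γ y₀))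
    (hy : NZ y) {V : RZ ℂ F} (hV : ∀ x, γ x ∈ V.1) {j : J} {i : io j} (hi : y j i ≠ 0) :
    V.v (y j i) = (ln y j).val V := by
  obtain ⟨c, hc, h⟩ := h
  obtain ⟨i', hi'⟩ := exists_ln hy j V
  refine (le_ln y j i V).antisymm (hi' ▸ (RZ.le_iff hi).2 ?_)
  have e : ∀ i, y j i = c j * γ (y₀ j i) := fun i => congrFun (congrFun h j) i
  rw [e, e, mul_div_mul_left _ _ (hc j), ← map_div₀]
  exact hV _

theorem n3_map (α : k →ₐ[ℂ] F) {ξ : Dat io d M k} : N3 (ξ.map α) ↔ N3 ξ := by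
  have h : ∀ (q : M) (t : k), (ξ.map α).x q = some (α t) ↔ ξ.x q = some t := fun q t =>
    (Option.map_injective (f := α) α.injective).eq_iff (a := ξ.x q) (b := some t)
  refine exists_congr fun a => exists_congr fun b => exists_congr fun c =>
    and_congr Option.map_eq_none_iff (and_congr ?_ ?_)
  · rw [← h, map_zero]
  · rw [← h, map_one]

theorem n3_congr {ξ η : Dat io d M k} (h : ξ.x = η.x) (h' : N3 η) : N3 ξ := by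
  rwa [N3, h]

section Core

variable {γ : k →ₐ[ℂ] F} {ζ₁ : Dat io d₁ M₁ k} {ζ₂ : Dat io d₂ M₂ k} {n₁ : M₁} {n₂ : M₂}
  {ω ω' : Dat io d₂ M₂ F} {i : (j : J) → io j} {u : Vr io → F} {η₁ : Dat io d₁ I₁ F}
  {η₂ : Dat io d₂ I₂ F} {m₁ : M₁ → I₁} {m₂ : M₂ → I₂}

theorem par_ext (hP : Par (ζ₁.cfg.y n₁) (ζ₂.cfg.y n₂)) (c₁ : (ζ₁.map γ).Eqv (η₁.res m₁))
    (c₂ : (ζ₂.map γ).Eqv (η₂.res m₂)) : Par (η₁.cfg.y (m₁ n₁)) (η₂.cfg.y (m₂ n₂)) := by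
  refine (par_eqv c₁ n₁).trans (Par.trans ?_ (par_eqv c₂ n₂).symm)
  rw [cfg_map_y, cfg_map_y]
  exact (par_map γ).2 hP

variable (hP : Par (ζ₁.cfg.y n₁) (ζ₂.cfg.y n₂)) (hω : (ζ₂.map γ).Eqv ω) (hT : Tv i u ω' ω)
  (c₁ : (ζ₁.map γ).Eqv (η₁.res m₁)) (c₂ : ω'.Eqv (η₂.res m₂)) (e₁ : η₁.NrmUp N) (e₂ : η₂.NrmUp N)
include hP hω hT c₁ c₂ e₁ e₂

theorem core {θ : k →ₐ[ℂ] k'} {a : F →ₐ[ℂ] F'} {b : k' →ₐ[ℂ] F'} (hab : a.comp γ = b.comp θ)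
    {W : RZ ℂ F'} {p : Pl ℂ k' ℂ E'} {ρ : E' →ₐ[ℂ] Rf W} (S : Sq b p (plV W) ρ)
    (hu : ∀ v, (dn a W).v (u v) < 1) {ξ₁ : Dat io d₁ I₁' k'} {ξ₂ : Dat io d₂ I₂' k'}
    {m₁' : M₁ → I₁'} {m₂' : M₂ → I₂'} (c₁' : (ζ₁.map θ).Eqv (ξ₁.res m₁'))
    (c₂' : (ζ₂.map θ).Eqv (ξ₂.res m₂')) (e₁' : ξ₁.NrmUp N) (e₂' : ξ₂.NrmUp N)
    (h : Par (rp (plV (dn a W)) (η₁.cfg.y (m₁ n₁))) (rp (plV (dn a W)) (η₂.cfg.y (m₂ n₂)))) :
    Lat N ((jn ((pair η₁.cfg η₂.cfg).red (plV (dn a W))) (.inl (m₁ n₁)) (.inr (m₂ n₂))).map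
      (rf a W)) (Sum.map m₁ m₂)
      ((jn ((pair ξ₁.cfg ξ₂.cfg).red p) (.inl (m₁' n₁)) (.inr (m₂' n₂))).map ρ)
      (Sum.map m₁' m₂') := by
  have f₁ : ((ζ₁.map γ).map a).Eqv ((ξ₁.map b).res m₁') := by
    rw [dmap_map, hab, ← dmap_map]
    exact eqv_map c₁' b
  have f₂ : ((ζ₂.map γ).map a).Eqv ((ξ₂.map b).res m₂') := by
    rw [dmap_map, hab, ← dmap_map]
    exact eqv_map c₂' b
  exact lat_congr (lat_near (η₁ := η₁.map a) (η₂ := η₂.map a) (near_refl W _) rfl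
    (tv_near (tv_map hT a) fun v => Val40.v_dn_lt_one.1 (hu v)) (tv_map hT a).2.1 (eqv_map c₁ a)
    (eqv_map c₂ a) f₁ (eqv_trans (eqv_symm (eqv_map hω a)) f₂) (nrmUp_map e₁ a) (nrmUp_map e₂ a)
    (nrmUp_map e₁' b) (nrmUp_map e₂' b) n₁ n₂) (geqN_of_geq (geq_sq (sq_rf a W) η₁ η₂ h))
    (geqN_of_geq (geq_sq S ξ₁ ξ₂ (par_rp (par_ext hP c₁' c₂') (nz_cfg _ _) p)))

variable [Algebra.EssFiniteType ℂ k] [Algebra.EssFiniteType ℂ F]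

theorem caseA {V : RZ ℂ F} (hV : Dvs V) (hu : ∀ v, V.v (u v) < 1)
    (h : Par (rp (plV V) (η₁.cfg.y (m₁ n₁))) (rp (plV V) (η₂.cfg.y (m₂ n₂))))
    (h0 : ¬∀ x, γ x ∈ V.1) :
    ∃ (E : Type) (_ : Field E) (_ : Algebra ℂ E) (_ : Algebra.EssFiniteType ℂ E)
      (ι : Rf V →ₐ[ℂ] E), 0 < deg ι ∧ ∃ (E' I' : Type) (_ : Field E') (_ : Algebra ℂ E')
      (_ : Fintype I') (β : E' →ₐ[ℂ] E) (z' : Cfg io I' E') (m' : M₁ ⊕ M₂ → I'),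
      dim ℂ E' < dim ℂ k ∧
      Lat N ((jn ((pair η₁.cfg η₂.cfg).red (plV V)) (.inl (m₁ n₁)) (.inr (m₂ n₂))).map ι)
        (Sum.map m₁ m₂) (z'.map β) m' := by
  obtain ⟨L₁, _, _, θ₁, r₁, ξ₁, a1, a2, a3⟩ := exists_nrm ζ₁ N
  obtain ⟨L, _, _, θ₂, r₂, ξ₂, b1, b2, b3⟩ := exists_nrm (ζ₂.map θ₁) N
  have hθ : 0 < deg (θ₂.comp θ₁) := by
    rw [Vb10.deg_comp]
    exact mul_pos a1 b1
  obtain ⟨F', _, _, a, b, ha, hab⟩ := Vb10.exists_amal γ _ hθ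
  obtain ⟨W, rfl⟩ := Val40.dn_surjective a V
  have := Vb10.eft_of_deg a ha
  have := Vb10.eft_of_deg _ hθ
  have hW : Dvs W := Val40.dvs_up ((deg_pos_iff a).1 ha) hV
  have h1 : (dn b W).1 ≠ ⊤ := fun h1 => h0 fun x => by
    change a.comp γ x ∈ W.1
    rw [hab]
    exact (Val40.mem_dn (α := b)).1 (h1 ▸ ValuationSubring.mem_top _)
  have h2 := Geo.dim_Rf' (Val40.dvs_dn hW h1)
  rw [(deg_pos_iff _).1 hθ] at h2
  refine ⟨Rf W, _, _, Geo.essFT_Rf hW, rf a W, (Val40.deg_rf_pos_iff hW hV.ne_top).2 ha,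
    Rf (dn b W), _, _, _, inferInstance, rf b W, _, _, by omega,
    core hP hω hT c₁ c₂ e₁ e₂ hab (sq_rf b W) hu (ξ₁ := ξ₁.map θ₂) (m₁' := Sum.inl)
      (m₂' := Sum.inl) ?_ ?_ (nrmUp_map a3 θ₂) b3 h⟩
  · rw [← dmap_res, a2, dmap_map]
    exact eqv_refl _
  · rw [b2, dmap_map]
    exact eqv_refl _

theorem caseB {V : RZ ℂ F} (hV : Dvs V) (hu : ∀ v, V.v (u v) < 1)
    (h : Par (rp (plV V) (η₁.cfg.y (m₁ n₁))) (rp (plV V) (η₂.cfg.y (m₂ n₂))))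
    (h0 : ∀ x, γ x ∈ V.1) {θ : k →ₐ[ℂ] k'} (hθ : 0 < deg θ) {ξ₁ : Dat io d₁ I₁' k'}
    {ξ₂ : Dat io d₂ I₂' k'} {m₁' : M₁ → I₁'} {m₂' : M₂ → I₂'} (c₁' : (ζ₁.map θ).Eqv (ξ₁.res m₁'))
    (c₂' : (ζ₂.map θ).Eqv (ξ₂.res m₂')) (e₁' : ξ₁.NrmUp N) (e₂' : ξ₂.NrmUp N) :
    ∃ (E : Type) (_ : Field E) (_ : Algebra ℂ E) (_ : Algebra.EssFiniteType ℂ E)
      (ι : Rf V →ₐ[ℂ] E), 0 < deg ι ∧ ∃ β : k' →ₐ[ℂ] E, (∀ x, β (θ x) = ι ((plV V).r (γ x))) ∧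
      Lat N ((jn ((pair η₁.cfg η₂.cfg).red (plV V)) (.inl (m₁ n₁)) (.inr (m₂ n₂))).map ι)
        (Sum.map m₁ m₂) ((gl ξ₁ ξ₂ (m₁' n₁) (m₂' n₂)).map β) (Sum.map m₁' m₂') := by
  obtain ⟨F', _, _, a, b, ha, hab⟩ := Vb10.exists_amal γ θ hθ
  obtain ⟨W, rfl⟩ := Val40.dn_surjective a V
  have := Vb10.eft_of_deg a ha
  have := Vb10.eft_of_deg _ hθ
  have hW : Dvs W := Val40.dvs_up ((deg_pos_iff a).1 ha) hV
  have e : ∀ x, b (θ x) = a (γ x) := fun x => (AlgHom.congr_fun hab x).symm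
  have h1 : (dn b W).1 = ⊤ := by
    by_contra h1
    refine Val40.dn_ne_top' (α := θ) ((deg_pos_iff θ).1 hθ) (Val40.dvs_dn hW h1)
      (eq_top_iff.2 fun x _ => ?_)
    change b (θ x) ∈ W.1
    rw [e]
    exact h0 x
  have h2 : ∀ x, b x ∈ W.1 := fun x => Val40.mem_dn.1 (h1 ▸ ValuationSubring.mem_top x)
  let β : k' →ₐ[ℂ] Rf W :=
    { toFun := fun x => (plV W).r (b x)
      map_one' := by rw [map_one]; exact Pl.r_one _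
      map_mul' := fun x y => by rw [map_mul]; exact Pl.r_mul (h2 x) (h2 y)
      map_zero' := by rw [map_zero]; exact Pl.r_zero _
      map_add' := fun x y => by rw [map_add]; exact Pl.r_add (h2 x) (h2 y)
      commutes' := fun c => by rw [b.commutes]; exact lnr_plV W c }
  have S : Sq b (LP.hom (AlgHom.id ℂ k')).toPl (plV W) β :=
    ⟨fun x => iff_of_true (h2 x) (mem_hom _ x), fun x => by rw [r_hom]; rfl⟩
  refine ⟨Rf W, _, _, Geo.essFT_Rf hW, rf a W, (Val40.deg_rf_pos_iff hW hV.ne_top).2 ha, β,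
    fun x => by rw [Val40.rf_r, ← e]; rfl, lat_congr
      (core hP hω hT c₁ c₂ e₁ e₂ hab S hu c₁' c₂' e₁' e₂' h) EqN.rfl.geqN
      (geqN_of_geq (Cfg.Geq.map (geq_jn ?_ _ _) β))⟩
  have := Cfg.red_hom (AlgHom.id ℂ k') (nz_pair (nz_cfg ξ₁) (nz_cfg ξ₂))
  rwa [Cfg.map_id] at this

end Core

/-- **CLASS2** -/
theorem class2Stmt : Wd54.Class2Stmt := by
  intro J _ _ io _ _ d₁ d₂ M₁ M₂ k F E₀ I₁ I₂ I₁' I₂' _ _ _ _ _ _ _ _ _ _ _ _ _ _ N ζ₁ ζ₂ n₁ n₂ G γ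
    i₀ u ζ₂' hi hT η₁ η₂ m₁ m₂ c₁ c₂ e₁ e₂ θ₀ ξ₁ ξ₂ m₁' m₂' hθ c₁' c₂' e₁' e₂' V hV h
  obtain ⟨C₁, -, C₃⟩ := Cnt37.countStmt (io := io)
  have := (C₃ ζ₁ ζ₂ n₁ n₂ G.n1 G.n2 G.par G.gen).1
  set y := (ζ₂.map γ).cfg.y n₂ with hy
  set y' := ζ₂'.cfg.y n₂ with hy'
  have hn : NZ y := nz_cfg _ _
  have hn' : NZ y' := nz_cfg _ _
  have p₁ : Par ((ζ₁.map γ).cfg.y n₁) y := by
    rw [hy, cfg_map_y, cfg_map_y]
    exact (par_map γ).2 G.par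
  have p₂ : Par (rp (plV V) y) (rp (plV V) y') :=
    ((par_rp ((par_eqv c₁ n₁).trans p₁) hn _).symm.trans h).trans (par_rp (par_eqv c₂ n₂) hn' _)
  have hi' : ∀ j, y j (i₀ j) ≠ 0 := fun j => by
    rw [hy, cfg_map_y]
    exact (map_ne_zero γ).2 (hi j)
  by_cases hp : ∀ j, V.v (y j (i₀ j)) = (ln y j).val V
  · have hu : ∀ v : Vr io, V.v (-u v) < 1 := fun v => by
      have h1 := (near_of_par p₂ hn hn' (hp v.1)).2.2 v.2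
      rw [hy', tv_y hT, tv_y hT, hT.1, zero_mul, add_zero, ← hy, add_div,
        mul_div_cancel_right₀ _ (hi' _), add_sub_cancel_left] at h1
      rwa [Valuation.map_neg]
    by_cases h0 : ∀ x, γ x ∈ V.1
    · obtain ⟨E, _, _, _, ι, h1, h2⟩ := caseB G.par (eqv_refl _) (tv_symm hT) c₁ c₂ e₁ e₂ hV hu h
        h0 hθ c₁' c₂' e₁' e₂'
      exact ⟨E, _, _, inferInstance, ι, h1, Or.inr ⟨h0, h2⟩⟩
    · obtain ⟨E, _, _, _, ι, h1, h2⟩ :=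
        caseA G.par (eqv_refl _) (tv_symm hT) c₁ c₂ e₁ e₂ hV hu h h0
      exact ⟨E, _, _, inferInstance, ι, h1, Or.inl ⟨h0, h2⟩⟩
  choose i₁ hi₁ using fun j => exists_ln hn j V
  have hN := fun j => near_of_par p₂ hn hn' (hi₁ j)
  let u' : Vr io → F := fun v => -(y' v.1 v.2 / y' v.1 (i₁ v.1) - y v.1 v.2 / y v.1 (i₁ v.1))
  have hu₀ : ∀ j, u' ⟨j, i₁ j⟩ = 0 := fun j => by simp [u', (hN j).1, (hN j).2.1]
  have hT' := tv_tv ζ₂' i₁ u' hu₀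
  set ω := tv ζ₂' i₁ u' hu₀
  have p₃ : Par (ω.cfg.y n₂) y := ⟨fun j => y' j (i₁ j) / y j (i₁ j),
    fun j => div_ne_zero (hN j).2.1 (hN j).1, funext fun j => funext fun i => by
      have := (hN j).1
      have := (hN j).2.1
      rw [tv_y hT', ← hy']
      simp only [u', scl]
      field_simp
      ring⟩
  let K := IntermediateField.adjoin ℂ ((ζ₁.map γ).crd ∪ ω.crd)
  obtain ⟨τ₁, a1, a2, a3⟩ := C₁ (ζ₁.map γ) K
    (Set.subset_union_left.trans (IntermediateField.subset_adjoin _ _))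
  obtain ⟨τ₂, b1, b2, b3⟩ := C₁ ω K
    (Set.subset_union_right.trans (IntermediateField.subset_adjoin _ _))
  have q₁ : Par y (mapP K.val (τ₁.cfg.y n₁)) :=
    cfg_map_y K.val τ₁ n₁ ▸ p₁.symm.trans (par_eqv (m := id) a1 n₁)
  have q₂ : Par y (mapP K.val (τ₂.cfg.y n₂)) :=
    cfg_map_y K.val τ₂ n₂ ▸ p₃.symm.trans (par_eqv (m := id) b1 n₂)
  have q₃ : Par (τ₁.cfg.y n₁) (τ₂.cfg.y n₂) := (par_map K.val).1 (q₁.symm.trans q₂)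
  obtain ⟨_, hd⟩ := C₃ τ₁ τ₂ n₁ n₂ ((n3_map K.val).1 (n3_congr a2 ((n3_map γ).2 G.n1)))
    ((n3_map K.val).1 (n3_congr (b2.trans (hT'.2.1.trans hT.2.1)) ((n3_map γ).2 G.n2))) q₃ (by
      refine IntermediateField.map_injective K.val ?_
      rw [IntermediateField.adjoin_map, Set.image_union, ← crd_map, ← crd_map, a3, b3,
        ← AlgHom.fieldRange_eq_map, IntermediateField.fieldRange_val])
  obtain ⟨E, _, _, _, ι, h1, E', I', _, _, _, β, z', m', h2, h3⟩ :=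
    caseA q₃ b1 hT' (eqv_trans a1 c₁) c₂ e₁ e₂ hV
      (fun v => by rw [Valuation.map_neg]; exact (hN v.1).2.2 v.2) h
      fun h0 => hp fun j => piv_of_triv q₁ hn h0 (hi' j)
  have := G.dm
  have q₄ : Par y (mapP γ (ζ₂.cfg.y n₂)) := by
    rw [hy, cfg_map_y]
    exact Par.refl _
  exact ⟨E, _, _, inferInstance, ι, h1, Or.inl ⟨fun h0 => hp fun j => piv_of_triv q₄ hn h0 (hi' j),
    E', I', _, _, inferInstance, β, z', m', by omega, h3⟩⟩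

end Crest.Agent.X262.Cl49
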