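import Crest.Agent.X262.Cl49.Np
import Crest.Agent.X262.Val40.Cfg

/-!
# Row 262, road B (helper49): data with the same reduction

* `Near V ξ ξ'`, `geq_red_near`, `exists_ref` : close data have a common norming refinement;
* `tv`, `Tv.*` : transvections;
* `lat_near`, `lat_sq` : glued reductions of close pairs.
-/

set_option autoImplicit false
set_option linter.unusedSectionVars false

noncomputable section

namespace Crest.Agent.X262.Cl49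

open Crest.Agent.X277 Crest.Agent.X277.BD Crest.Agent.X277.BD.Cyc
open Polynomial hiding funext
open Crest.Agent.X262.Hb Crest.Agent.X262.Vb Crest.Agent.X262.Vb37
open Crest.Agent.X262.Node22 (scl chr chr_ne Par pair jn)
open Crest.Agent.X262.Wd54 (NP GeqN Lat rp Tv)
open Crest.Agent.X262.Vb.Cfg (Geq)
open Crest.Agent.X262.Val40 (Sq)

variable {J : Type} [Fintype J] [DecidableEq J] {io : J → Type} [∀ j, Fintype (io j)]
  [∀ j, DecidableEq (io j)]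
variable {K E L : Type} [Field K] [Algebra ℂ K] [Field E] [Algebra ℂ E] [Field L] [Algebra ℂ L]
variable {I I' I₁ I₂ I₁' I₂' M M₁ M₂ : Type} [Fintype I] [Fintype I'] [Fintype I₁]
  [Fintype I₂] [Fintype I₁'] [Fintype I₂'] {N : ℕ} {d d₁ d₂ : J → ℕ}

/-- close configurations have the same reduction -/
theorem geq_red_near {z z' : Cfg io I K} (hz : z.NZ) (hV : ∀ κ, z'.V κ = z.V κ) (p : Pl ℂ K ℂ E)
    (h : ∀ q j i, p.V.v (z'.y q j i - z.y q j i) < (ln (z.y q) j).val p.V) :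
    Geq (z'.red p) (z.red p) := by
  have hP := Cfg.pr_nrm hz p.V
  have h1 : ∀ q j i, p.V.v ((z'.gau (z.nrm p.V)).y q j i - (z.gau (z.nrm p.V)).y q j i) < 1 :=
    fun q j i => by
      change p.V.v (_ * _ - _ * _) < 1
      rw [← mul_sub, map_mul, Val40.v_nrm, inv_mul_lt_one₀ (val_pos _ _)]
      exact h q j i
  have h2 : ∀ q j i, (z'.gau (z.nrm p.V)).y q j i ∈ p.V.1 := fun q j i => by
    simpa using add_mem (RZ.le_one_iff.1 (h1 q j i).le) ((hP q j).1 i)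
  have h3 : ∀ q j i, p.r ((z'.gau (z.nrm p.V)).y q j i) = p.r ((z.gau (z.nrm p.V)).y q j i) :=
    fun q j i => by
      rw [← sub_eq_zero, ← Pl.r_sub (h2 q j i) ((hP q j).1 i)]
      exact (Pl.r_eq_zero (RZ.le_one_iff.1 (h1 q j i).le)).2 (h1 q j i)
  have hP' : (z'.gau (z.nrm p.V)).Pr p.V := fun q j => ⟨h2 q j, (hP q j).2.imp fun i hi =>
    Pl.r_ne_zero_iff.1 (h3 q j i ▸ Pl.r_ne_zero_iff.2 hi)⟩
  refine ((Cfg.geq_gau z' (Cfg.nrm_ne p.V z)).red_red0 hP').trans (Geq.of_eq ?_)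
  exact Cfg.ext (fun q => funext fun j => funext fun i => h3 q j i) fun κ => by
    change redS p (sclS _ (z'.V κ)) = redS p (sclS _ (z.V κ))
    rw [hV]

/-- the maps are close at `V` -/
def Near (V : RZ ℂ K) (ξ : Dat io d I K) (ξ' : Dat io d I' K) : Prop :=
  ∀ t j i, V.v (ξ'.pt t j i - ξ.pt t j i) < (ln (ξ.pt t) j).val V

theorem near_refl (V : RZ ℂ K) (ξ : Dat io d M K) : Near V ξ ξ := fun t j i => by
  rw [sub_self, map_zero]
  exact val_pos _ _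

theorem geq_cfg {ξ η : Dat io d I K} (h : ξ.Eqv η) : Geq ξ.cfg η.cfg := eqv_cfg h

theorem cfg_V {ξ η : Dat io d I K} (h : ξ.x = η.x) (κ : J → ℕ) : ξ.cfg.V κ = η.cfg.V κ := by
  have : ∀ n, ξ.evl n = η.evl n := fun n => LinearMap.ext fun σ => funext fun q =>
    congrArg (Bub96.hv n σ) (congrFun h q)
  simp only [Dat.cfg, this]

theorem exists_ref0 {V : RZ ℂ K} {η : Dat io d I K} {ξ : Dat io d I' K} (h : Near V η ξ)
    {m : M → I} {m' : M → I'} (hx : ∀ a, η.x (m a) = ξ.x (m' a)) (hη : η.NrmUp N)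
    (hξ : ξ.NrmUp N) : ∃ w, Ref N w (η.cfg.red (plV V)) m (ξ.cfg.red (plV V)) m' := by
  let η' : Dat io d (I ⊕ I') K := ⟨η.f, Sum.elim η.x ξ.x, η.cp⟩
  let ξ' : Dat io d (I ⊕ I') K := ⟨ξ.f, Sum.elim η.x ξ.x, ξ.cp⟩
  have e1 : η'.res Sum.inl = η := rfl
  have e2 : ξ'.res Sum.inr = ξ := rfl
  have h1 : NP N η'.cfg Sum.inl := np_cfg η' (e1 ▸ hη)
  have h2 : NP N ξ'.cfg Sum.inr := np_cfg ξ' (e2 ▸ hξ)
  have h3 : Geq (ξ'.cfg.red (plV V)) (η'.cfg.red (plV V)) :=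
    geq_red_near (nz_cfg η') (cfg_V (ξ := ξ') (η := η') rfl) _ fun q => h (η'.x q)
  refine ⟨η'.cfg.red (plV V), (nz_cfg η').red _, (mul_cfg η').red (nz_cfg η') _,
    np_red h1 (nz_cfg _) V, np_geqN (np_red h2 (nz_cfg _) V) ((nz_cfg _).red _) (geqN_of_geq h3),
    ?_, geqN_trans (geqN_of_geq (h3.symm.res _)) ?_,
    fun a => (sam_cfg (ξ := η') (q := .inl (m a)) (q' := .inr (m' a)) (hx a)).red _⟩
  · have := (res_red h1 (nz_cfg _) (plV V)).geqN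
    rwa [← cfg_res, e1] at this
  · have := (res_red h2 (nz_cfg _) (plV V)).geqN
    rwa [← cfg_res, e2] at this

/-- norming extensions of close data have a common refinement after reduction -/
theorem exists_ref {V : RZ ℂ K} {ζ ζ' : Dat io d M K} (h : Near V ζ ζ') (hx : ζ'.x = ζ.x)
    {η : Dat io d I K} {ξ : Dat io d I' K} {m : M → I} {m' : M → I'} (h₁ : ζ.Eqv (η.res m))
    (h₂ : ζ'.Eqv (ξ.res m')) (hη : η.NrmUp N) (hξ : ξ.NrmUp N) :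
    ∃ w, Ref N w (η.cfg.red (plV V)) m (ξ.cfg.red (plV V)) m' := by
  obtain ⟨η', e₁, rfl⟩ := eqv_extend (eqv_symm h₁)
  obtain ⟨ξ', e₂, rfl⟩ := eqv_extend (eqv_symm h₂)
  obtain ⟨w, hw⟩ := exists_ref0 (η := η') (ξ := ξ') (m := m) (m' := m') h
    (fun a => (congrFun hx a).symm) (eqv_nrmUp e₁ hη) (eqv_nrmUp e₂ hξ)
  exact ⟨w, hw.congr (geqN_of_geq ((geq_cfg e₁).red (nz_cfg _) _).symm)
    (geqN_of_geq ((geq_cfg e₂).red (nz_cfg _) _).symm)⟩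

theorem lat_near {V : RZ ℂ K} {ζ₁ ζ₁' : Dat io d₁ M₁ K} {ζ₂ ζ₂' : Dat io d₂ M₂ K}
    (a₁ : Near V ζ₁ ζ₁') (b₁ : ζ₁'.x = ζ₁.x) (a₂ : Near V ζ₂ ζ₂') (b₂ : ζ₂'.x = ζ₂.x)
    {η₁ : Dat io d₁ I₁ K} {η₂ : Dat io d₂ I₂ K} {ξ₁ : Dat io d₁ I₁' K} {ξ₂ : Dat io d₂ I₂' K}
    {m₁ : M₁ → I₁} {m₂ : M₂ → I₂} {m₁' : M₁ → I₁'} {m₂' : M₂ → I₂'} (c₁ : ζ₁.Eqv (η₁.res m₁))
    (c₂ : ζ₂.Eqv (η₂.res m₂)) (c₁' : ζ₁'.Eqv (ξ₁.res m₁')) (c₂' : ζ₂'.Eqv (ξ₂.res m₂'))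
    (e₁ : η₁.NrmUp N) (e₂ : η₂.NrmUp N) (e₁' : ξ₁.NrmUp N) (e₂' : ξ₂.NrmUp N) (n₁ : M₁) (n₂ : M₂) :
    Lat N (jn ((pair η₁.cfg η₂.cfg).red (plV V)) (.inl (m₁ n₁)) (.inr (m₂ n₂))) (Sum.map m₁ m₂)
      (jn ((pair ξ₁.cfg ξ₂.cfg).red (plV V)) (.inl (m₁' n₁)) (.inr (m₂' n₂)))
      (Sum.map m₁' m₂') := by
  obtain ⟨w₁, h₁⟩ := exists_ref a₁ b₁ c₁ c₁' e₁ e₁'
  obtain ⟨w₂, h₂⟩ := exists_ref a₂ b₂ c₂ c₂' e₂ e₂'
  rw [Node22.pair_red, Node22.pair_red]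
  exact lat_of_ref h₁ h₂ n₁ n₂

/-- gluing, reduction and a square of places -/
theorem geq_sq {E' : Type} [Field E'] [Algebra ℂ E'] {a : K →ₐ[ℂ] L} {p : Pl ℂ K ℂ E}
    {q : Pl ℂ L ℂ E'} {ρ : E →ₐ[ℂ] E'} (S : Sq a p q ρ) (η₁ : Dat io d₁ I₁ K)
    (η₂ : Dat io d₂ I₂ K) {n₁ : I₁} {n₂ : I₂} (h : Par (rp p (η₁.cfg.y n₁)) (rp p (η₂.cfg.y n₂))) :
    Geq (jn ((pair (η₁.map a).cfg (η₂.map a).cfg).red q) (.inl n₁) (.inr n₂))
      ((jn ((pair η₁.cfg η₂.cfg).red p) (.inl n₁) (.inr n₂)).map ρ) := by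
  rw [jn_map ρ (z := (pair η₁.cfg η₂.cfg).red p) (q := .inl n₁) (q' := .inr n₂) h
    ((nz_pair (nz_cfg _) (nz_cfg _)).red p _), cfg_map, cfg_map, ← pair_map]
  exact geq_jn (Geq.symm (S.red _)) _ _

theorem sq_rf (a : K →ₐ[ℂ] L) (W : RZ ℂ L) : Sq a (plV (Val40.dn a W)) (plV W) (Val40.rf a W) :=
  ⟨fun _ => Iff.rfl, fun x => (Val40.rf_r a W x).symm⟩

/-! ### points -/

theorem prim_gen {y : Pnt io K} (h : NZ y) (V : RZ ℂ K) :
    Prim V (scl (fun j => ((ln y j).gen V)⁻¹) y) := prim_scl h fun j => by rw [map_inv₀, v_gen]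

theorem par_rp {y y' : Pnt io K} (h : Par y y') (h' : NZ y') (p : Pl ℂ K ℂ E) :
    Par (rp p y) (rp p y') := by
  have h0 : NZ y := by
    obtain ⟨c, hc, rfl⟩ := h
    exact Node22.nz_scl h' hc
  exact (h.scl (fun _ => inv_ne_zero (gen_ne _ _)) fun _ => inv_ne_zero (gen_ne _ _)).red
    (prim_gen h0 _) (prim_gen h' _)

theorem par_eqv {ξ : Dat io d M K} {η : Dat io d I K} {m : M → I} [Fintype M]
    (h : ξ.Eqv (η.res m)) (a : M) : Par (η.cfg.y (m a)) (ξ.cfg.y a) :=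
  geqN_par (N := 0) (geqN_of_geq (geq_cfg h)) a

theorem par_map (α : K →ₐ[ℂ] L) {y y' : Pnt io K} : Par (mapP α y) (mapP α y') ↔ Par y y' := by
  refine ⟨fun ⟨c, hc, h⟩ => ?_, fun ⟨c, hc, h⟩ => ⟨fun j => α (c j),
    fun j => (map_ne_zero α).2 (hc j), by
      funext j i
      rw [h]
      exact map_mul α _ _⟩⟩
  have hα : Function.Injective α := α.injective
  have key : ∀ j, ∃ e : K, e ≠ 0 ∧ ∀ i, y j i = e * y' j i := fun j => by
    have h1 : ∀ i, α (y j i) = c j * α (y' j i) := fun i => congrFun (congrFun h j) i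
    by_cases h0 : ∃ i, y' j i ≠ 0
    · obtain ⟨i₀, h0⟩ := h0
      have h2 : α (y j i₀ / y' j i₀) = c j := by
        rw [map_div₀, h1, mul_div_cancel_right₀ _ ((map_ne_zero α).2 h0)]
      exact ⟨_, (map_ne_zero α).1 (h2 ▸ hc j), fun i => hα (by rw [map_mul, h2, h1])⟩
    · push Not at h0
      exact ⟨1, one_ne_zero, fun i => hα (by rw [h1, h0, mul_zero, map_zero, mul_zero])⟩
  choose e he using key
  exact ⟨e, fun j => (he j).1, funext fun j => funext (he j).2⟩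

theorem cfg_map_y (α : K →ₐ[ℂ] L) (ξ : Dat io d M K) (a : M) :
    (ξ.map α).cfg.y a = mapP α (ξ.cfg.y a) :=
  funext fun j => funext fun i => dmap_pt α ξ _ j i

/-- points with the same reduction have close affine coordinates -/
theorem near_of_par {y y' : Pnt io K} {p : Pl ℂ K ℂ E} (h : Par (rp p y) (rp p y')) (hy : NZ y)
    (hy' : NZ y') {j : J} {i₁ : io j} (h₁ : p.V.v (y j i₁) = (ln y j).val p.V) :
    y j i₁ ≠ 0 ∧ y' j i₁ ≠ 0 ∧ ∀ i, p.V.v (y' j i / y' j i₁ - y j i / y j i₁) < 1 := by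
  obtain ⟨c, hc, h⟩ := h
  set n := ((ln y j).gen p.V)⁻¹ with hn
  set n' := ((ln y' j).gen p.V)⁻¹ with hn'
  have hP : ∀ i, n * y j i ∈ p.V.1 := (prim_gen hy p.V j).1
  have hP' : ∀ i, n' * y' j i ∈ p.V.1 := (prim_gen hy' p.V j).1
  have hn0 : n ≠ 0 := inv_ne_zero (gen_ne _ _)
  have hn0' : n' ≠ 0 := inv_ne_zero (gen_ne _ _)
  have h2 : ∀ i, p.r (n * y j i) = c j * p.r (n' * y' j i) := fun i => congrFun (congrFun h j) i
  have h3 : p.V.v (n * y j i₁) = 1 := by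
    rw [map_mul, hn, map_inv₀, v_gen, h₁, inv_mul_cancel₀ (val_ne _ _)]
  have h4 : p.V.v (n' * y' j i₁) = 1 := Pl.r_ne_zero_iff.1 fun h0 =>
    Pl.r_ne_zero_iff.2 h3 (by rw [h2, h0, mul_zero])
  have h5 : y j i₁ ≠ 0 := fun h0 => by simp [h0] at h3
  have h6 : y' j i₁ ≠ 0 := fun h0 => by simp [h0] at h4
  refine ⟨h5, h6, fun i => ?_⟩
  have e : y' j i / y' j i₁ - y j i / y j i₁ =
      ((n' * y' j i) * (n * y j i₁) - (n * y j i) * (n' * y' j i₁)) /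
        ((n' * y' j i₁) * (n * y j i₁)) := by field_simp
  rw [e, map_div₀, map_mul, h3, h4, one_mul, div_one,
    ← Pl.r_eq_zero (sub_mem (mul_mem (hP' i) (hP i₁)) (mul_mem (hP i) (hP' i₁))),
    Pl.r_sub (mul_mem (hP' i) (hP i₁)) (mul_mem (hP i) (hP' i₁)), Pl.r_mul (hP' i) (hP i₁),
    Pl.r_mul (hP i) (hP' i₁), h2, h2]
  ring

/-! ### transvections -/

/-- the transvection of a datum -/
def tv (ξ : Dat io d M K) (i₀ : (j : J) → io j) (u : Vr io → K) (hu : ∀ j, u ⟨j, i₀ j⟩ = 0) :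
    Dat io d M K where
  f j i := ξ.f j i + C (u ⟨j, i⟩) * ξ.f j (i₀ j)
  x := ξ.x
  cp := by
    refine ⟨fun j i => natDegree_add_le_of_degree_le (ξ.cp.1 j i)
      ((natDegree_C_mul_le _ _).trans (ξ.cp.1 j _)), fun j => ?_, fun j => ?_⟩
    · by_cases h : (ξ.f j (i₀ j)).coeff (d j) = 0
      · exact (ξ.cp.2.1 j).imp fun i hi => by simpa [h] using hi
      · exact ⟨i₀ j, by simpa [hu] using h⟩
    · rw [eq_top_iff, ← ξ.cp.2.2 j, Ideal.span_le]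
      rintro _ ⟨i, rfl⟩
      have h1 := Ideal.subset_span (s := Set.range fun i => ξ.f j i + C (u ⟨j, i⟩) * ξ.f j (i₀ j))
        ⟨i, rfl⟩
      have h2 := Ideal.subset_span (s := Set.range fun i => ξ.f j i + C (u ⟨j, i⟩) * ξ.f j (i₀ j))
        ⟨i₀ j, rfl⟩
      simp only [hu, map_zero, zero_mul, add_zero] at h2
      simpa using sub_mem h1 (Ideal.mul_mem_left _ (C (u ⟨j, i⟩)) h2)

theorem tv_tv (ξ : Dat io d M K) (i₀ : (j : J) → io j) (u : Vr io → K)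
    (hu : ∀ j, u ⟨j, i₀ j⟩ = 0) : Tv i₀ u ξ (tv ξ i₀ u hu) := ⟨hu, rfl, fun _ _ => rfl⟩

variable {i₀ : (j : J) → io j} {u : Vr io → K} {ξ ξ' : Dat io d M K}

theorem tv_pt (h : Tv i₀ u ξ ξ') (t : Option K) (j : J) (i : io j) :
    ξ'.pt t j i = ξ.pt t j i + u ⟨j, i⟩ * ξ.pt t j (i₀ j) := by
  simp only [Dat.pt]
  rw [h.2.2, Bub96.hv_add, Vb37.hv_C_mul]

theorem tv_y (h : Tv i₀ u ξ ξ') (a : M) (j : J) (i : io j) :
    ξ'.cfg.y a j i = ξ.cfg.y a j i + u ⟨j, i⟩ * ξ.cfg.y a j (i₀ j) := by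
  change ξ'.pt (ξ'.x a) j i = _
  rw [h.2.1]
  exact tv_pt h _ j i

theorem tv_symm (h : Tv i₀ u ξ ξ') : Tv i₀ (fun v => -u v) ξ' ξ :=
  ⟨fun j => neg_eq_zero.2 (h.1 j), h.2.1.symm, fun j i => by
    rw [h.2.2, h.2.2, h.1]
    simp⟩

theorem tv_map (h : Tv i₀ u ξ ξ') (α : K →ₐ[ℂ] L) :
    Tv i₀ (fun v => α (u v)) (ξ.map α) (ξ'.map α) :=
  ⟨fun j => (map_eq_zero α).2 (h.1 j), funext fun q => congrArg (Option.map α) (congrFun h.2.1 q),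
    fun j i => by
      simp only [Dat.map]
      rw [h.2.2, Polynomial.map_add, Polynomial.map_mul, map_C]
      rfl⟩

theorem tv_near (h : Tv i₀ u ξ ξ') {V : RZ ℂ K} (hu : ∀ v, V.v (u v) < 1) : Near V ξ ξ' :=
  fun t j i => by
    rw [tv_pt h, add_sub_cancel_left, map_mul]
    exact (mul_le_mul_right (le_ln _ j _ V) _).trans_lt (mul_lt_of_lt_one_left (val_pos _ _) (hu _))

end Crest.Agent.X262.Cl49
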